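import Vale.Agent.P167.H318.Rev
import Vale.Agent.P167.H704.RecDefs

/-!
# P167, block REC, the beginning: `CL → ESC → SM → SYM`

The strand is explored until it enters the low zone of height `h0 = T k`.  If it enters far from the
support of the observable, it has to escape from a half box; otherwise all the squares off the low
zone are revealed and `CL` applies.
-/

namespace Vale.Agent.P167.H950.Start

open Vale.Agent.P167 Vale.Agent.P167.H192 Vale.Agent.P145.FB Vale.Agent.P167.H558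
open Vale.Agent.P167.H318 Vale.Agent.P167.H704
open MeasureTheory

theorem pow_small {C α η : ℝ} (hC : 0 < C) (hα : 0 < α) (hη : 0 < η) :
    ∃ θ : ℝ, 0 < θ ∧ ∀ r R : ℝ, 0 ≤ r → 0 < R → r ≤ θ * R → C * (r / R) ^ α ≤ η := by
  refine ⟨(η / C) ^ (1 / α), Real.rpow_pos_of_pos (div_pos hη hC) _, ?_⟩
  intro r R hr hR h
  have h1 : r / R ≤ (η / C) ^ (1 / α) := (div_le_iff₀ hR).2 h
  have h2 : (r / R) ^ α ≤ ((η / C) ^ (1 / α)) ^ α :=
    Real.rpow_le_rpow (div_nonneg hr hR.le) h1 hα.le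
  rw [← Real.rpow_mul (div_pos hη hC).le, one_div, inv_mul_cancel₀ hα.ne', Real.rpow_one] at h2
  calc C * (r / R) ^ α ≤ C * (η / C) := mul_le_mul_of_nonneg_left h2 hC.le
    _ = η := by field_simp

/-- where the weight is not zero -/
theorem wt_ne {ψ : ℤ → ℝ} {k : ℕ} {u w : ℤ} (hψ : ∀ x, ψ x ≠ 0 → u - w ≤ x ∧ x ≤ u + w) {e : Ed}
    (h : wt ψ k e ≠ 0) :
    u - w - 1 ≤ (hdv e).1 ∧ (hdv e).1 ≤ u + w ∧ 0 ≤ (hdv e).2 ∧ (hdv e).2 < k := by
  rcases e with v | v
  · have h1 : 0 ≤ v.2 ∧ v.2 < k := by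
      by_contra hcon
      exact h (if_neg hcon)
    have h2 : ψ (v.1 + 1) ≠ 0 := by
      intro h0
      apply h
      show (if 0 ≤ v.2 ∧ v.2 < k then ψ (v.1 + 1) * (sg (Sum.inl v) : ℝ) else 0) = 0
      rw [if_pos h1, h0, zero_mul]
    have h3 := hψ _ h2
    have h4 : hdv (Sum.inl v) = (v.1 + 1, v.2) ∨ hdv (Sum.inl v) = v := by
      show (if Even (v.1 + v.2) then (v.1 + 1, v.2) else v) = _ ∨
        (if Even (v.1 + v.2) then (v.1 + 1, v.2) else v) = _
      split_ifs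
      · exact Or.inl rfl
      · exact Or.inr rfl
    obtain ⟨h5, h6⟩ := h3
    obtain ⟨h7, h8⟩ := h1
    rcases h4 with h4 | h4
    · rw [h4]
      refine ⟨?_, ?_, h7, h8⟩ <;> show _ ≤ _ <;> dsimp only <;> omega
    · rw [h4]
      refine ⟨?_, ?_, h7, h8⟩ <;> omega
  · exact absurd rfl h

theorem J_ne {D : Finset (ℤ × ℤ)} {e0 : Ed} {ψ : ℤ → ℝ} {k : ℕ} {ξ : Cfg}
    (h : J D e0 ψ k ξ ≠ 0) : ∃ i < ex D e0 ξ, wt ψ k (st e0 ξ i) ≠ 0 := by
  obtain ⟨i, hi, h⟩ := Finset.exists_ne_zero_of_sum_ne_zero h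
  exact ⟨i, Finset.mem_range.1 hi, h⟩

/-- **Cauchy-Schwarz** -/
theorem cs (S : St) {Φ : Cfg → ℝ} {V : Set Cfg} {k C2 p s : ℝ} (hk : 0 < k) (hs : 0 < s)
    (h1 : ∀ ω, Φ (S.cf ω) ≠ 0 → S.cf ω ∈ V) (h2 : S.E (fun ξ => Φ ξ ^ 2) ≤ C2 * k ^ 2)
    (h3 : S.Pr V ≤ p) : |S.E Φ| ≤ k * (C2 * s / 2 + p / (2 * s)) := by
  have i0 : Integrable (fun ω => Φ (S.cf ω)) μ := (dep_cf S Φ).integrable
  have i1 : Integrable (fun ω => Φ (S.cf ω) ^ 2 * (s / (2 * k))) μ :=
    (dep_cf S fun ξ => Φ ξ ^ 2 * (s / (2 * k))).integrable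
  have i2 : Integrable (fun ω => k / (2 * s) * V.indicator (1 : Cfg → ℝ) (S.cf ω)) μ :=
    (dep_cf S fun ξ => k / (2 * s) * V.indicator (1 : Cfg → ℝ) ξ).integrable
  have hcmp : ∀ ω, |Φ (S.cf ω)| ≤
      Φ (S.cf ω) ^ 2 * (s / (2 * k)) + k / (2 * s) * V.indicator (1 : Cfg → ℝ) (S.cf ω) := by
    intro ω
    by_cases h : Φ (S.cf ω) = 0
    · rw [h, abs_zero]
      have : 0 ≤ V.indicator (1 : Cfg → ℝ) (S.cf ω) :=
        Set.indicator_nonneg (fun _ _ => zero_le_one) _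
      positivity
    · rw [Set.indicator_of_mem (h1 ω h), Pi.one_apply, mul_one]
      set j := Φ (S.cf ω) with hj
      have h10 : |j| ^ 2 = j ^ 2 := sq_abs j
      have h11 : j ^ 2 * (s / (2 * k)) + k / (2 * s) - |j| = (|j| * s - k) ^ 2 / (2 * k * s) := by
        rw [← h10]
        field_simp
        ring
      have h12 : 0 ≤ (|j| * s - k) ^ 2 / (2 * k * s) := by positivity
      linarith
  have e1 : ∫ ω, V.indicator (1 : Cfg → ℝ) (S.cf ω) ∂μ = S.Pr V := (Pr_eq S V).symm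
  have e2 : ∫ ω, Φ (S.cf ω) ^ 2 ∂μ = S.E (fun ξ => Φ ξ ^ 2) := rfl
  calc |S.E Φ| = |∫ ω, Φ (S.cf ω) ∂μ| := rfl
    _ ≤ ∫ ω, |Φ (S.cf ω)| ∂μ := abs_integral_le_integral_abs
    _ ≤ ∫ ω, (Φ (S.cf ω) ^ 2 * (s / (2 * k)) +
          k / (2 * s) * V.indicator (1 : Cfg → ℝ) (S.cf ω)) ∂μ :=
        integral_mono i0.abs (i1.add i2) hcmp
    _ = S.E (fun ξ => Φ ξ ^ 2) * (s / (2 * k)) + k / (2 * s) * S.Pr V := by
        rw [integral_add i1 i2, integral_mul_const, integral_const_mul, e1, e2]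
    _ ≤ (C2 * k ^ 2) * (s / (2 * k)) + k / (2 * s) * p := by
        refine add_le_add (mul_le_mul_of_nonneg_right h2 (by positivity))
          (mul_le_mul_of_nonneg_left h3 (by positivity))
    _ = k * (C2 * s / 2 + p / (2 * s)) := by
        field_simp

/-- the new state and the strand up to the entrance in `A` -/
theorem path1 {S : St} (hS : tlv S.e0 ∉ S.D) (A : Set (ℤ × ℤ)) (ω ω' : Cfg) :
    (∀ i ≤ hit S.D S.e0 A (S.cf ω),
      st S.e0 ((S.rv (S.RV A ω) ω).cf ω') i = st S.e0 (S.cf ω) i) ∧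
    hit S.D S.e0 A ((S.rv (S.RV A ω) ω).cf ω') = hit S.D S.e0 A (S.cf ω) := by
  rw [← cf_glue]
  exact RV_path hS fun q hq => glue_mem (Finset.mem_coe.2 hq)

theorem start : H704.START := by
  classical
  rintro ⟨Λ, hΛ, hCL⟩ ⟨C1, α, hC1, hα, hE⟩ ⟨C2, hC2, hSM⟩ ε hε
  obtain ⟨T, K, hT, hCL⟩ := hCL (ε / 2) (by positivity)
  obtain ⟨s, hs⟩ : ∃ s, s = ε / C2 := ⟨_, rfl⟩
  have hs0 : 0 < s := by rw [hs]; positivity
  obtain ⟨η, hη⟩ : ∃ η, η = min (ε / (2 * Λ)) (s * ε) := ⟨_, rfl⟩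
  have hη0 : 0 < η := by rw [hη]; exact lt_min (by positivity) (by positivity)
  have hη1 : η ≤ ε / (2 * Λ) := by rw [hη]; exact min_le_left _ _
  have hη2 : η ≤ s * ε := by rw [hη]; exact min_le_right _ _
  obtain ⟨θ, hθ, hpow⟩ := pow_small hC1 hα hη0
  refine ⟨max (max K 150) (max (64 * T) ⌈32 * (T : ℝ) / θ⌉), ?_⟩
  intro k w u S ψ hk hKw hok hF hfl hst hψ1 hψ2 hψ3
  have hk1 : (1 : ℤ) ≤ k := by exact_mod_cast hk
  have hk0 : (0 : ℝ) < k := by exact_mod_cast hk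
  have hmono : ∀ c : ℤ, c ≤ max (max K 150) (max (64 * T) ⌈32 * (T : ℝ) / θ⌉) → c * k ≤ w :=
    fun c hc => (mul_le_mul_of_nonneg_right hc (by omega)).trans hKw
  have w1 : K * k ≤ w := hmono K ((le_max_left _ _).trans (le_max_left _ _))
  have w2 : 150 * (k : ℤ) ≤ w := hmono 150 ((le_max_right _ _).trans (le_max_left _ _))
  have w3 : 64 * T * k ≤ w := hmono (64 * T) ((le_max_left _ _).trans (le_max_right _ _))
  have w4 : ⌈32 * (T : ℝ) / θ⌉ * k ≤ w := hmono _ ((le_max_right _ _).trans (le_max_right _ _))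
  obtain ⟨h0, hh0⟩ : ∃ h0, h0 = T * (k : ℤ) := ⟨_, rfl⟩
  have w3' : 64 * h0 ≤ w := by rw [hh0]; linarith
  have hh1 : 150 * (k : ℤ) ≤ h0 := by
    rw [hh0]
    exact mul_le_mul_of_nonneg_right hT (by omega)
  have hw0 : (0 : ℝ) < w := by
    have : 0 < w := by omega
    exact_mod_cast this
  have w5 : (h0 : ℝ) ≤ θ * (w / 32) := by
    have h1 : 32 * (T : ℝ) / θ ≤ ⌈32 * (T : ℝ) / θ⌉ := Int.le_ceil _
    have h2 : (⌈32 * (T : ℝ) / θ⌉ : ℝ) * k ≤ w := by exact_mod_cast w4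
    have h3 : 32 * (T : ℝ) / θ * k ≤ w := (mul_le_mul_of_nonneg_right h1 hk0.le).trans h2
    have h4 : 32 * (T : ℝ) * k ≤ w * θ := by
      rw [div_mul_eq_mul_div, div_le_iff₀ hθ] at h3
      exact h3
    rw [hh0]
    push_cast
    linarith
  -- half boxes in the zone
  have hHB : ∀ b R : ℤ, u - 4 * w ≤ b - R → b + R ≤ u + 4 * w → R ≤ 4 * w →
      ∀ v ∈ HB b R, v ∈ S.F := by
    intro b R h1 h2 h3 v hv
    obtain ⟨v1, v2, v3, v4⟩ := hv
    exact (hF v).2 ⟨by omega, by omega, v3, by omega⟩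
  obtain ⟨A, hA⟩ : ∃ A, A = Lo u (2 * w) h0 := ⟨_, rfl⟩
  have hAF : ∀ v ∈ A, v ∈ S.F := by
    intro v hv
    rw [hA] at hv
    obtain ⟨v1, v2, v3, v4⟩ := hv
    exact (hF v).2 ⟨by omega, by omega, v3, by omega⟩
  have hflat : Flat S.D u (2 * w) h0 :=
    ⟨fun v hv => hok.sub (hAF v (hA ▸ hv)), fun x h1 h2 => hfl x (by omega) (by omega)⟩
  have key : ∀ ω, |(S.rv (S.RV A ω) ω).E (J S.D S.e0 ψ k)| ≤ ε * k := by
    intro ω
    obtain ⟨S1, hS1⟩ : ∃ S1, S1 = S.rv (S.RV A ω) ω := ⟨_, rfl⟩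
    have hD1 : S1.D = S.D := by rw [hS1]; rfl
    have he1 : S1.e0 = S.e0 := by rw [hS1]; rfl
    have hF1 : S1.F = S.F \ S.RV A ω := by rw [hS1]; rfl
    have hok1 : S1.Ok := by rw [hS1]; exact rv_ok hok _ _
    obtain ⟨m1, m2, m3, m4⟩ := rv_m (S := S) hok.st (A := A) (R := S.RV A ω) (ω := ω)
      (Finset.Subset.refl _) (fun q hq => ⟨hAF q hq, fun h => RV_notMem h hq⟩)
    rw [← hS1] at m1 m2 m3 m4
    have hp := fun ω' => path1 (S := S) hok.st A ω ω'
    rw [← hS1] at hp ⊢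
    have hAF1 : ∀ v ∈ A, v ∈ S1.F := by
      intro v hv
      rw [hF1]
      exact Finset.mem_sdiff.2 ⟨hAF v hv, fun h => RV_notMem h hv⟩
    have hTA1 : TA S1 u (2 * w) h0 :=
      { hok1 with
        flat := hD1 ▸ hflat
        fresh := fun v hv => hAF1 v (hA ▸ hv) }
    have hJ : ∀ ω', J S.D S.e0 ψ k (S1.cf ω') ≠ 0 → ∃ i, S1.m ≤ i ∧ i < ex S.D S.e0 (S1.cf ω') ∧
        u - w - 1 ≤ (hdv (st S.e0 (S1.cf ω') i)).1 ∧ (hdv (st S.e0 (S1.cf ω') i)).1 ≤ u + w := by
      intro ω' h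
      obtain ⟨i, hi, h⟩ := J_ne h
      obtain ⟨h1, h2, h3, h4⟩ := wt_ne hψ3 h
      refine ⟨i, ?_, hi, h1, h2⟩
      rw [m2, ← (hp ω').2]
      by_contra hcon
      apply (Bs.hit_min (not_le.1 hcon)).1
      rw [hA]
      exact ⟨by omega, by omega, h3, by omega⟩
    by_cases hex : hdv S1.tip ∈ S.D
    swap
    · have hz : ∀ ω', J S.D S.e0 ψ k (S1.cf ω') = 0 := by
        intro ω'
        by_contra hne
        obtain ⟨i, h1, h2, -⟩ := hJ ω' hne
        have h3 : ex S.D S.e0 (S1.cf ω') ≤ S1.m := by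
          refine Bs.ex_le ?_
          rw [m2, (hp ω').1 _ le_rfl]
          rw [m3] at hex
          exact hex
        omega
      have : S1.E (J S.D S.e0 ψ k) = 0 := by
        show ∫ ω', J S.D S.e0 ψ k (S1.cf ω') ∂μ = 0
        simp only [hz, integral_zero]
      rw [this, abs_zero]
      positivity
    have htip : hdv S1.tip ∈ A := by
      rcases Bs.hit_spec hok.st A (S.cf ω) with h | h
      · rw [m3]
        exact h
      · rw [m3] at hex
        exact absurd hex h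
    obtain ⟨b0, hb0⟩ : ∃ b0, b0 = (hdv S1.tip).1 := ⟨_, rfl⟩
    rw [hA] at htip
    obtain ⟨t1, t2, t3, t4⟩ := htip
    rw [← hb0] at t1 t2
    -- escape in the new state
    have hesc : ∀ b R : ℤ, |b0 - b| ≤ h0 - 1 → u - 2 * w ≤ b - (h0 - 1) →
        b + (h0 - 1) ≤ u + 2 * w → h0 - 1 ≤ R → u - 4 * w ≤ b - R → b + R ≤ u + 4 * w →
        R ≤ 4 * w → w ≤ 32 * R → S1.Pr {ξ | Visit S1.D S1.e0 S1.m (HB b R)ᶜ ξ} ≤ η := by
      intro b R g1 g2 g3 g4 g5 g6 g7 g8
      rw [abs_le] at g1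
      refine (hE S1 b (h0 - 1) R (by omega) g4 hok1 ?_ ?_ ?_ ?_ ?_).trans ?_
      · intro v hv
        rw [hD1]
        exact hok.sub (hHB b R g5 g6 g7 v hv)
      · intro x h1 h2
        rw [hD1]
        exact hfl x (by omega) (by omega)
      · intro v hv
        obtain ⟨v1, v2, v3, v4⟩ := hv
        refine hAF1 v ?_
        rw [hA]
        exact ⟨by omega, by omega, v3, by omega⟩
      · intro v hv
        have hv' := hHB b R g5 g6 g7 v hv
        by_cases h : v ∈ S.RV A ω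
        · right
          rw [m4]
          exact (mem_RV.1 h).2
        · left
          rw [hF1]
          exact Finset.mem_sdiff.2 ⟨hv', h⟩
      · exact ⟨by omega, by omega, t3, by omega⟩
      · have hR0 : (0 : ℝ) < R := by
          have : 0 < R := by omega
          exact_mod_cast this
        refine hpow _ _ ?_ hR0 ?_
        · have : (0 : ℤ) ≤ h0 - 1 := by omega
          exact_mod_cast this
        · have h5 : (w : ℝ) ≤ 32 * R := by exact_mod_cast g8
          have h6 : θ * (w / 32) ≤ θ * R := mul_le_mul_of_nonneg_left (by linarith) hθ.le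
          push_cast
          linarith
    by_cases hfar : 3 * w ≤ 2 * |b0 - u|
    · -- the strand enters far from the support
      obtain ⟨b, hb1, hb2, hb3⟩ : ∃ b, |b0 - b| ≤ h0 - 1 ∧ u - 2 * w ≤ b - (h0 - 1) ∧
          b + (h0 - 1) ≤ u + 2 * w := by
        rcases le_total b0 u with h | h
        · refine ⟨max b0 (u - 2 * w + (h0 - 1)), ?_, ?_, ?_⟩
          · rw [abs_le]
            omega
          · omega
          · omega
        · refine ⟨min b0 (u + 2 * w - (h0 - 1)), ?_, ?_, ?_⟩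
          · rw [abs_le]
            omega
          · omega
          · omega
      have h1 := hesc b (w / 4) hb1 hb2 hb3 (by omega) (by omega) (by omega) (by omega) (by omega)
      have h2 := hSM S1 u (2 * w) h0 k ψ hk hh1 hTA1 hψ1
        (fun x hx => ⟨by have := (hψ3 x hx).1; omega, by have := (hψ3 x hx).2; omega⟩)
      rw [hD1, he1] at h1 h2
      have h3 := cs S1 (Φ := J S.D S.e0 ψ k) hk0 hs0 (fun ω' hω' => by
        obtain ⟨i, i1, i2, i3, i4⟩ := hJ ω' hω'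
        refine ⟨i, i1, i2, fun h => ?_⟩
        obtain ⟨j1, j2, -, -⟩ := h
        rcases abs_cases (b0 - u) with ⟨c1, c2⟩ | ⟨c1, c2⟩ <;>
          rcases abs_cases (b0 - b) with ⟨c3, c4⟩ | ⟨c3, c4⟩ <;> omega) h2 h1
      refine h3.trans ?_
      rw [mul_comm ε]
      refine mul_le_mul_of_nonneg_left ?_ hk0.le
      have h4 : C2 * s / 2 = ε / 2 := by
        rw [hs]
        field_simp
      have h5 : η / (2 * s) ≤ ε / 2 := by
        rw [div_le_iff₀ (by positivity)]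
        linarith
      linarith
    · -- the strand enters near the support
      rw [not_le] at hfar
      have hlv : S1.Pr (Lv S1 u w h0 b0 (w / 16)) ≤ η := by
        refine le_trans ?_ (hesc b0 (w / 16 - 1) (by rw [sub_self, abs_zero]; omega)
          (by rcases abs_cases (b0 - u) with ⟨c1, c2⟩ | ⟨c1, c2⟩ <;> omega)
          (by rcases abs_cases (b0 - u) with ⟨c1, c2⟩ | ⟨c1, c2⟩ <;> omega) (by omega)
          (by omega) (by omega) (by omega) (by omega))
        refine measureReal_mono ?_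
        intro ω' hω'
        obtain ⟨j, -, j2, j3, j4⟩ := hω'
        have hj : S1.cf ω' = ov S1.F S1.z ω' := rfl
        rw [← hj, hD1, he1] at j2
        rw [← hj, he1] at j3 j4
        refine ⟨j, ?_, ?_, ?_⟩
        · rw [m2, ← (hp ω').2]
          by_contra hcon
          apply (Bs.hit_min (not_le.1 hcon)).1
          rw [hA]
          exact j3
        · rw [← hj, hD1, he1]
          exact j2
        · rw [← hj, he1]
          intro h
          obtain ⟨l1, l2, -, -⟩ := h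
          rcases abs_cases ((hdv (st S.e0 (S1.cf ω') j)).1 - b0) with ⟨c1, c2⟩ | ⟨c1, c2⟩ <;> omega
      have h1 := rev S1 (S1.F.filter fun q => q ∉ A) (B := Set.univ)
        (fun _ _ _ => rfl) (J S.D S.e0 ψ k) (Lv S1 u w h0 b0 (w / 16)) (a := ε / 2 * k)
        (b := Λ * k) (fun ω' _ => by
          have hTA2 : TA (S1.rv (S1.F.filter fun q => q ∉ A) ω') u (2 * w) (T * k) := by
            rw [← hh0]
            refine { rv_ok hok1 _ _ with flat := hD1 ▸ hflat, fresh := fun v hv => ?_ }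
            rw [← hA] at hv
            exact Finset.mem_sdiff.2 ⟨hAF1 v hv, fun h => (Finset.mem_filter.1 h).2 hv⟩
          have h2 := hCL k w u b0 (w / 16) (S1.rv (S1.F.filter fun q => q ∉ A) ω') ψ hk w1 hTA2
            (fun v hv => by
              rw [← hh0, ← hA]
              obtain ⟨v1, v2⟩ := Finset.mem_sdiff.1 hv
              by_contra hcon
              exact v2 (Finset.mem_filter.2 ⟨v1, hcon⟩))
            (fun x h1 h2 h3 => hst x (by omega) (by omega) (he1 ▸ h3))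
            (by omega) hψ1 hψ2 hψ3
          rw [← hh0] at h2
          have e1 : (S1.rv (S1.F.filter fun q => q ∉ A) ω').D = S.D := hD1
          have e2 : (S1.rv (S1.F.filter fun q => q ∉ A) ω').e0 = S.e0 := he1
          have e3 : Lv (S1.rv (S1.F.filter fun q => q ∉ A) ω') u w h0 b0 (w / 16) =
            Lv S1 u w h0 b0 (w / 16) := rfl
          rw [e1, e2, e3] at h2
          exact h2)
      have h3 : |S1.E (J S.D S.e0 ψ k)| ≤ ε / 2 * k + Λ * k * S1.Pr (Lv S1 u w h0 b0 (w / 16)) := by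
        have e1 : ∫ ω' in Set.univ, J S.D S.e0 ψ k (S1.cf ω') ∂μ = S1.E (J S.D S.e0 ψ k) := by
          rw [setIntegral_univ]
          rfl
        rw [e1, Set.univ_inter, probReal_univ, mul_one] at h1
        exact h1
      refine h3.trans ?_
      have h4 : Λ * k * S1.Pr (Lv S1 u w h0 b0 (w / 16)) ≤ Λ * k * (ε / (2 * Λ)) :=
        mul_le_mul_of_nonneg_left (hlv.trans hη1) (by positivity)
      have h5 : Λ * k * (ε / (2 * Λ)) = ε / 2 * k := by
        field_simp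
      rw [h5] at h4
      linarith
  have hfin := rev_stop S (stopSet_RV hok.st A) (K := ∅) (B := Set.univ) (fun _ _ _ => rfl)
    (fun _ _ _ => rfl) (dep_RV A) (J S.D S.e0 ψ k) ∅ (a := ε * k) (b := 0) (fun ω _ => by
      rw [zero_mul, add_zero]
      exact key ω)
  have e1 : ∫ ω in Set.univ, J S.D S.e0 ψ k (S.cf ω) ∂μ = S.E (J S.D S.e0 ψ k) := by
    rw [setIntegral_univ]
    rfl
  rw [e1, zero_mul, add_zero, probReal_univ, mul_one] at hfin
  exact hfin

end Vale.Agent.P167.H950.Start
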