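import Vale.Agent.P167.H632.EscP

/-!
# P167, block NSYM: `DT`, the event `TJ` is determined by the squares at height `≥ l'`
-/

namespace Vale.Agent.P167.H950

open Vale.Agent.P167 Vale.Agent.P167.H318 Vale.Agent.P167.H558
open MeasureTheory Relation

/-- two configurations which agree off `A` have the same strand up to the hitting time of `A` and
the same hitting time -/
theorem hit_congr {D : Finset (ℤ × ℤ)} {e0 : Ed} (h0 : tlv e0 ∉ D) {A : Set (ℤ × ℤ)} {ξ ξ' : Cfg}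
    (h : ∀ q ∉ A, ξ q = ξ' q) : (∀ i ≤ hit D e0 A ξ, st e0 ξ' i = st e0 ξ i) ∧
      hit D e0 A ξ' = hit D e0 A ξ := by
  have h1 : ∀ i ≤ hit D e0 A ξ, st e0 ξ' i = st e0 ξ i := by
    intro i
    induction i with
    | zero => exact fun _ => rfl
    | succ i ih =>
      intro hi
      have h2 : st e0 ξ' i = st e0 ξ i := ih (by omega)
      have h3 := (H632.lt_hit (show i < hit D e0 A ξ by omega)).1
      show (nx ξ')^[i + 1] e0 = (nx ξ)^[i + 1] e0
      rw [Function.iterate_succ_apply', Function.iterate_succ_apply']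
      show nx ξ' (st e0 ξ' i) = nx ξ (st e0 ξ i)
      rw [h2]
      exact H192.nx_congr (h _ h3).symm
  refine ⟨h1, le_antisymm (Nat.sInf_le ?_) ?_⟩
  · show hdv (st e0 ξ' (hit D e0 A ξ)) ∈ A ∨ hdv (st e0 ξ' (hit D e0 A ξ)) ∉ D
    rw [h1 _ le_rfl]
    exact H632.hit_spec h0
  · by_contra hlt
    push Not at hlt
    have h4 := H632.lt_hit hlt
    have h5 := H632.hit_spec (A := A) (ξ := ξ') h0
    change hdv (st e0 ξ _) ∉ A ∧ hdv (st e0 ξ _) ∈ D at h4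
    change hdv (st e0 ξ' _) ∈ A ∨ hdv (st e0 ξ' _) ∉ D at h5
    rw [h1 _ hlt.le] at h5
    rcases h5 with h5 | h5
    · exact h4.1 h5
    · exact h5 h4.2

/-- **DT** -/
theorem dt : H318.DT := by
  intro S u w l H x l' hl' hll hH hTB hF hx1 hx2 ω ω' hω hTJ
  have h0 : tlv S.e0 ∉ S.D := hTB.st
  -- agreement off the low zone of height `l'`
  have hag : ∀ η η' : Cfg, (∀ q : ℤ × ℤ, l' ≤ q.2 → η q = η' q) → ∀ q ∉ Lo u w l',
      S.cf η q = S.cf η' q := by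
    intro η η' hη q hq
    unfold St.cf
    by_cases hqF : q ∈ S.F
    · rw [H192.ov_mem hqF, H192.ov_mem hqF]
      refine hη q ?_
      obtain ⟨k1, k2, k3, k4⟩ := hF q hqF
      by_contra hc
      exact hq ⟨k1, k2, k3, by omega⟩
    · rw [H192.ov_notMem hqF, H192.ov_notMem hqF]
  have hsub : Lo u w l' ⊆ Lo u w l := fun q hq => ⟨hq.1, hq.2.1, hq.2.2.1, hq.2.2.2.trans_le hll⟩
  have hm : ∀ q : ℤ × ℤ, l' ≤ q.2 → mC x ω q = mC x ω' q := by
    intro q hq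
    show (!(ω (mQ x q))) = !(ω' (mQ x q))
    rw [hω (mQ x q) hq]
  obtain ⟨a1, a2⟩ := hit_congr (D := S.D) h0 (A := Lo u w l') (hag ω ω' hω)
  obtain ⟨b1, b2⟩ := hit_congr (D := S.D) h0 (A := Lo u w l)
    fun q hq => hag ω ω' hω q fun h => hq (hsub h)
  obtain ⟨c1, c2⟩ := hit_congr (D := S.D) h0 (A := Lo u w l)
    fun q hq => hag (mC x ω) (mC x ω') hm q fun h => hq (hsub h)
  obtain ⟨⟨t1, t2⟩, t3, t4⟩ := hTJ
  have hX : S.X1 (Lo u w l) ω' = S.X1 (Lo u w l) ω := by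
    show st S.e0 (S.cf ω') (hit S.D S.e0 (Lo u w l) (S.cf ω')) =
      st S.e0 (S.cf ω) (hit S.D S.e0 (Lo u w l) (S.cf ω))
    rw [b2, b1 _ le_rfl]
  have hXm : S.X1 (Lo u w l) (mC x ω') = S.X1 (Lo u w l) (mC x ω) := by
    show st S.e0 (S.cf (mC x ω')) (hit S.D S.e0 (Lo u w l) (S.cf (mC x ω'))) =
      st S.e0 (S.cf (mC x ω)) (hit S.D S.e0 (Lo u w l) (S.cf (mC x ω)))
    rw [c2, c1 _ le_rfl]
  refine ⟨⟨?_, ?_⟩, ?_, ?_⟩
  · rw [hX]; exact t1
  · rw [hX, hXm]; exact t2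
  · rw [a2]
    by_contra hc
    push Not at hc
    have h5 := H632.ex_spec (D := S.D) (ξ := S.cf ω') h0
    change hdv (st S.e0 (S.cf ω') _) ∉ S.D at h5
    rw [a1 _ hc] at h5
    exact h5 (H632.lt_ex (lt_of_le_of_lt hc t3))
  · rw [a2, b2]
    intro i hi hi'
    rw [a1 i hi']
    exact t4 i hi hi'

end Vale.Agent.P167.H950
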