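import Vale.Agent.P167.H166N.Defs

/-!
# P167, block GP: contact of a fresh dual path with the explored open cluster, two stages

* `g2a : H166N.G2a`: a dual path of the fresh configuration across the strip is cut at its first
  contact with the squares revealed by the open cluster; without contact the open cluster and the
  dual path would cross each other (`P145.FB.easy`).
* `g2b : H166N.G2b`: resampling off the stopping set `U ∪ RC`.
-/

namespace Vale.Agent.P167.H950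

open Vale.Agent.P167 Vale.Agent.P145.FB Vale.Agent.P167.H558 Vale.Agent.P167.H166N
open Vale.Agent.P153 Vale.Agent.P153.Topo
open MeasureTheory Relation

/-! ### paths -/

/-- change of the squares and of the region along a path -/
theorem pconn_into {F F' R R' : Set (ℤ × ℤ)} {u v : ℤ × ℤ} (h : PConn F R u v) (hu : u ∈ R')
    (hs : ∀ x ∈ R, ∀ y ∈ R, PStep F x y → (min x.1 y.1, min x.2 y.2) ∈ F' ∧ y ∈ R') :
    PConn F' R' u v := by
  obtain ⟨huR, h⟩ := h
  induction h with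
  | refl => exact PConn.refl hu
  | @tail x y hx hxy ih =>
    have hxR : x ∈ R := (show PConn F R u x from ⟨huR, hx⟩).right_mem
    obtain ⟨h1, h2⟩ := hs x hxR y hxy.2 hxy.1
    exact ih.tail ⟨hxy.1.1, hxy.1.2.1, h1⟩ h2

/-- crossing of the strip `p ≤ f ≤ q` -/
theorem cross_f {G Rg : Set (ℤ × ℤ)} (f : ℤ × ℤ → ℤ)
    (hf : ∀ u v, PStep G u v → f v ≤ f u + 1 ∧ f u ≤ f v + 1) {p q : ℤ} (hpq : p ≤ q)
    {y y' : ℤ × ℤ} (h : PConn G Rg y y') (hy : f y ≤ p) (hy' : q ≤ f y') :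
    ∃ z z', f z = p ∧ f z' = q ∧ PConn G (Rg ∩ {w | p ≤ f w ∧ f w ≤ q}) z z' ∧
      PConn G Rg y z ∧ PConn G Rg z' y' := by
  obtain ⟨z', h1, h2, h3⟩ := H632.pconn_cut_first f (fun u v h => (hf u v h).1) h
    (hy.trans hpq) hy'
  obtain ⟨z, h4, h5, h6⟩ := H632.pconn_cut_first (fun w => - f w) (R := -p)
    (fun u v h => by have := (hf u v h).2; omega) h2.symm
    (by omega) (by omega)
  refine ⟨z, z', by omega, h1, h5.symm.mono subset_rfl ?_,
    h6.symm.mono subset_rfl Set.inter_subset_left, h3⟩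
  rintro w ⟨⟨hw1, hw2⟩, hw3⟩
  simp only [Set.mem_ofPred_eq] at hw2 hw3
  exact ⟨hw1, by omega, hw2⟩

/-- a path is cut at its first square in `T` -/
theorem first_contact {G T S : Set (ℤ × ℤ)} {t t' : ℤ × ℤ} (h : PConn G S t t') :
    PConn (G \ T) S t t' ∨ ∃ s s', PConn (G \ T) S t s ∧ PStep (G ∩ T) s s' ∧ s' ∈ S := by
  obtain ⟨htS, h⟩ := h
  induction h with
  | refl => exact Or.inl (PConn.refl htS)
  | @tail x y hx hxy ih =>
    rcases ih with ih | ih
    · by_cases hT : (min x.1 y.1, min x.2 y.2) ∈ T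
      · exact Or.inr ⟨x, y, ih, ⟨hxy.1.1, hxy.1.2.1, hxy.1.2.2, hT⟩, hxy.2⟩
      · exact Or.inl (ih.tail ⟨hxy.1.1, hxy.1.2.1, hxy.1.2.2, hT⟩ hxy.2)
    · exact Or.inr ih

/-- the medial edge between two neighbouring sites -/
theorem exists_edge {u s q : ℤ × ℤ} (hu : (u.1 + u.2) % 2 = 0) (hs : (s.1 + s.2) % 2 = 1)
    (u1 : u.1 = q.1 ∨ u.1 = q.1 + 1) (u2 : u.2 = q.2 ∨ u.2 = q.2 + 1)
    (s1 : s.1 = q.1 ∨ s.1 = q.1 + 1) (s2 : s.2 = q.2 ∨ s.2 = q.2 + 1) :
    ∃ e : Ed, ls e = u ∧ rs e = s ∧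
      (q.1 - 1 ≤ (hdv e).1 ∧ (hdv e).1 ≤ q.1 + 1 ∧ q.2 - 1 ≤ (hdv e).2 ∧ (hdv e).2 ≤ q.2 + 1) ∧
      (q.1 - 1 ≤ (tlv e).1 ∧ (tlv e).1 ≤ q.1 + 1 ∧ q.2 - 1 ≤ (tlv e).2 ∧
        (tlv e).2 ≤ q.2 + 1) := by
  obtain ⟨a, b⟩ := q
  obtain ⟨x, y⟩ := u
  obtain ⟨z, w⟩ := s
  dsimp only at *
  by_cases hy : y = w
  · refine ⟨Sum.inr (a, y - 1), ?_⟩
    simp only [ls, rs, hdv, tlv]
    by_cases he : Even (a + (y - 1))
    · simp only [if_pos he]
      rw [Int.even_iff] at he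
      refine ⟨?_, ?_, ?_, ?_⟩
      · ext <;> dsimp only <;> omega
      · ext <;> dsimp only <;> omega
      · omega
      · omega
    · simp only [if_neg he]
      rw [Int.even_iff] at he
      refine ⟨?_, ?_, ?_, ?_⟩
      · ext <;> dsimp only <;> omega
      · ext <;> dsimp only <;> omega
      · omega
      · omega
  · refine ⟨Sum.inl (x - 1, b), ?_⟩
    simp only [ls, rs, hdv, tlv]
    by_cases he : Even (x - 1 + b)
    · simp only [if_pos he]
      rw [Int.even_iff] at he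
      refine ⟨?_, ?_, ?_, ?_⟩
      · ext <;> dsimp only <;> omega
      · ext <;> dsimp only <;> omega
      · omega
      · omega
    · simp only [if_neg he]
      rw [Int.even_iff] at he
      refine ⟨?_, ?_, ?_, ?_⟩
      · ext <;> dsimp only <;> omega
      · ext <;> dsimp only <;> omega
      · omega
      · omega

/-- a horizontal path in `Fᶜ` and a vertical path in `F` exclude each other -/
theorem no_cross {F : Set (ℤ × ℤ)} {a b c d : ℤ} {u v y y' : ℤ × ℤ}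
    (hF : PConn F (Rect a b c d) u v) (hu : u.2 = c) (hv : v.2 = d) (he : (u.1 + u.2) % 2 = 0)
    (hE : PConn Fᶜ (Rect a b c d) y y') (ho : (y.1 + y.2) % 2 = 1) (hy : y.1 = a)
    (hy' : y'.1 = b) : False := by
  have hR : Prod.swap ⁻¹' Rect a b c d = Rect c d a b := by
    ext w
    rw [Set.mem_preimage, mem_rect, mem_rect]
    simp only [Prod.fst_swap, Prod.snd_swap]
    tauto
  have h1 := hF.swap
  have h2 := hE.swap
  rw [hR] at h1 h2
  rw [Set.preimage_compl] at h2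
  refine easy h1 hu hv ?_ h2 ?_ (Or.inl hy) (Or.inl hy')
  · show (u.2 + u.1) % 2 = 0
    omega
  · show (y.2 + y.1) % 2 = 1
    omega

/-! ### the cluster -/

theorem mem_RC {D : Finset (ℤ × ℤ)} {B : Set (ℤ × ℤ)} {ω : Cfg} {q : ℤ × ℤ} :
    q ∈ RC D B ω ↔ q ∈ D ∧ ∃ u ∈ OC D B ω, ∃ v, PStep {q} u v := by
  classical
  simp [RC]

theorem OC_step {D : Finset (ℤ × ℤ)} {B : Set (ℤ × ℤ)} {ω : Cfg} {u v : ℤ × ℤ}
    (hu : u ∈ OC D B ω) (h : PStep (op ω ∩ ↑D) u v) : v ∈ OC D B ω := by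
  obtain ⟨b, hb, h1⟩ := hu
  exact ⟨b, hb, h1.tail h trivial⟩

/-- inside the cluster -/
theorem OC_path {D : Finset (ℤ × ℤ)} {B : Set (ℤ × ℤ)} {ω : Cfg} {b v : ℤ × ℤ} (hb : b ∈ B)
    (h : PConn (op ω ∩ ↑D) Set.univ b v) : PConn (op ω ∩ ↑D) (OC D B ω) b v := by
  have hb' : b ∈ OC D B ω := ⟨b, hb, PConn.refl trivial⟩
  obtain ⟨-, h⟩ := h
  induction h with
  | refl => exact PConn.refl hb'
  | @tail x y hx hxy ih => exact ih.tail hxy.1 (OC_step ih.right_mem hxy.1)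

theorem g2a : H166N.G2a := by
  intro D U B S x1 x2 h1 h2 ω ω' b' t0 t1 hx hh hB hD hU hb' hb2 hS ht0 ht1 ht2 hp
  have hpar : ∀ u ∈ OC D B ω, (u.1 + u.2) % 2 = 0 := by
    rintro u ⟨b, hb, h⟩
    rw [← h.parity]
    exact (hB b hb).1
  rcases first_contact (T := ↑(RC D B ω)) hp with h | ⟨s, s', h, hs, hs'⟩
  · -- no contact
    exfalso
    obtain ⟨b, hb, hbb⟩ := hb'
    have hcl := OC_path hb hbb
    obtain ⟨z, z', hz, hz', hzz, -, -⟩ := cross_f (fun w => w.2)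
      (fun u v h => by have := h.2.1; omega) hh.le hcl (hB b hb).2 hb2
    -- one step
    have hst : ∀ x ∈ OC D B ω ∩ {w | h1 ≤ w.2 ∧ w.2 ≤ h2}, ∀ y ∈ OC D B ω ∩ {w | h1 ≤ w.2 ∧ w.2 ≤ h2},
        PStep (op ω ∩ ↑D) x y → (min x.1 y.1, min x.2 y.2) ∈ (↑(RC D B ω) : Set (ℤ × ℤ)) ∧
          x ∈ Rect x1 x2 h1 h2 ∧ y ∈ Rect x1 x2 h1 h2 := by
      rintro x ⟨hxO, hxr⟩ y ⟨hyO, hyr⟩ hxy
      simp only [Set.mem_ofPred_eq] at hxr hyr
      obtain ⟨k1, k2, k3, k4⟩ := hxy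
      have hq := hD _ (Finset.mem_coe.1 k4) (by dsimp only; omega) (by dsimp only; omega)
      dsimp only at hq
      refine ⟨Finset.mem_coe.2 (mem_RC.2 ⟨Finset.mem_coe.1 k4, x, hxO, y, k1, k2, rfl⟩), ?_, ?_⟩
      · rw [mem_rect]; omega
      · rw [mem_rect]; omega
    have hzR : z ∈ Rect x1 x2 h1 h2 := by
      rcases ReflTransGen.cases_head hzz.2 with h3 | ⟨y, h3, -⟩
      · rw [h3] at hz; omega
      · exact (hst z hzz.left_mem y h3.2 h3.1).2.1
    have hv : PConn (↑(RC D B ω) : Set (ℤ × ℤ)) (Rect x1 x2 h1 h2) z z' :=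
      pconn_into hzz hzR fun x hx y hy hxy => ⟨(hst x hx y hy hxy).1, (hst x hx y hy hxy).2.2⟩
    -- the dual path
    obtain ⟨y, y', hy, hy', hyy, hty, -⟩ := cross_f (fun w => w.1)
      (fun u v h => by have := h.1; omega) hx.le h ht1 ht2
    have hyy' : PConn (↑(RC D B ω) : Set (ℤ × ℤ))ᶜ (Rect x1 x2 h1 h2) y y' := by
      refine hyy.mono (fun q hq => hq.2) ?_
      rintro w ⟨hw1, hw2⟩
      have := hS w hw1
      simp only [Set.mem_ofPred_eq] at hw2
      rw [mem_rect]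
      exact ⟨hw2.1, hw2.2, this.1, this.2⟩
    refine no_cross hv hz hz' (hpar z hzz.left_mem.1) hyy' ?_ hy hy'
    rw [← hty.parity]
    exact ht0
  · -- contact
    obtain ⟨k1, k2, k3, k4⟩ := hs
    have hsS := hS s h.right_mem
    have hsS' := hS s' hs'
    obtain ⟨hqD, u, hu, v, hu1, hu2, hu3⟩ := mem_RC.1 (Finset.mem_coe.1 k4)
    have hq := hD _ hqD (by dsimp only; omega) (by dsimp only; omega)
    rw [Set.mem_singleton_iff, Prod.mk.injEq] at hu3
    obtain ⟨hu3, hu4⟩ := hu3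
    dsimp only at hq
    obtain ⟨e, he1, he2, he3, he4⟩ := exists_edge (q := (min s.1 s'.1, min s.2 s'.2))
      (hpar u hu) (s := s) (by rw [← h.parity]; exact ht0)
      (by dsimp only; omega) (by dsimp only; omega) (by dsimp only; omega) (by dsimp only; omega)
    dsimp only at he3 he4
    refine ⟨e, by rw [he1]; exact hu, by rw [he1]; omega, by rw [he1]; omega, by omega,
      by omega, ?_⟩
    rw [he2]
    refine pconn_into h h.left_mem fun x hx y hy hxy => ⟨?_, hy⟩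
    obtain ⟨m1, m2, m3, m4⟩ := hxy
    have hx' := hS x hx
    have hy' := hS y hy
    have hnot : (min x.1 y.1, min x.2 y.2) ∉ (↑(U ∪ RC D B ω) : Set (ℤ × ℤ)) := by
      intro hc
      rw [Finset.mem_coe, Finset.mem_union] at hc
      rcases hc with hc | hc
      · have := hU _ hc
        dsimp only at this
        omega
      · exact m4 (Finset.mem_coe.2 hc)
    show ¬ (glue _ ω ω' _ = true)
    rw [glue_not_mem hnot]
    exact m3

/-! ### two stages -/

theorem OC_eq_Cl (D : Finset (ℤ × ℤ)) (B : Set (ℤ × ℤ)) (ω : Cfg) :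
    OC D B ω = H192.Cl D (fun q u v => PStep {q} u v) (fun _ _ => False) (fun _ b => b = true)
      B ω := by
  have hst : ∀ x y, (PStep (op ω ∩ ↑D) x y ∧ y ∈ Set.univ) ↔
      H192.stp D (fun q u v => PStep {q} u v) (fun _ _ => False) (fun _ b => b = true) ω x y := by
    intro x y
    unfold H192.stp
    constructor
    · rintro ⟨⟨k1, k2, k3, k4⟩, -⟩
      exact Or.inr ⟨_, Finset.mem_coe.1 k4, k3, k1, k2, rfl⟩
    · rintro (h | ⟨q, hq, hc, k1, k2, k3⟩)
      · exact h.elim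
      · rw [Set.mem_singleton_iff] at k3
        exact ⟨⟨k1, k2, by rw [k3]; exact hc, by rw [k3]; exact Finset.mem_coe.2 hq⟩, trivial⟩
  ext v
  constructor
  · rintro ⟨b, hb, -, h⟩
    exact ⟨b, hb, ReflTransGen.mono (fun x y hxy => (hst x y).1 hxy) _ _ h⟩
  · rintro ⟨b, hb, h⟩
    exact ⟨b, hb, trivial, ReflTransGen.mono (fun x y hxy => (hst x y).2 hxy) _ _ h⟩

theorem RC_eq_Rv (D : Finset (ℤ × ℤ)) (B : Set (ℤ × ℤ)) :
    RC D B = H192.Rv D (fun q u v => PStep {q} u v) (fun _ _ => False) (fun _ b => b = true)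
      B := by
  funext ω
  ext q
  rw [mem_RC, H192.mem_Rv, OC_eq_Cl]

theorem stop_RC (D : Finset (ℤ × ℤ)) (B : Set (ℤ × ℤ)) : StopSet (RC D B) := by
  rw [RC_eq_Rv]
  exact H192.stop_Rv

theorem stop_URC (D U : Finset (ℤ × ℤ)) (B : Set (ℤ × ℤ)) : StopSet fun ω => U ∪ RC D B ω := by
  intro ω ω' h
  show U ∪ RC D B ω' = U ∪ RC D B ω
  rw [stop_RC D B ω ω' fun i hi => h i (Finset.mem_union_right _ hi)]

theorem g2b : H166N.G2b := by
  intro D U B E W A hE hW hA
  have hR := stop_URC D U B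
  have hpast : Past (fun ω => U ∪ RC D B ω) fun ω => ω ∈ E := by
    intro ω ω' h
    refine propext ⟨fun h' => ?_, fun h' => hE ω ω' h' h⟩
    refine hE ω' ω h' fun v hv => ?_
    have h2 : U ∪ RC D B ω' = U ∪ RC D B ω := hR ω ω' h
    rw [h2] at hv
    exact (h v hv).symm
  have hEm : MeasurableSet E := hpast.measurableSet {p | p}
  have hmu : μ = Pm fair (ℤ × ℤ) := rfl
  have hmap := map_stop fair hR
  rw [← hmu] at hmap
  have hle : μ E * μ W ≤ μ A := by
    calc μ E * μ W = (μ.prod μ) (E ×ˢ W) := (Measure.prod_prod _ _).symm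
      _ ≤ (μ.prod μ) ((fun p : Cfg × Cfg => glue (↑(U ∪ RC D B p.1)) p.1 p.2) ⁻¹'
            toMeasurable μ A) := by
          refine measure_mono ?_
          rintro ⟨ω, ω'⟩ ⟨h1, h2⟩
          exact subset_toMeasurable μ A (hA ω h1 ω' h2)
      _ = Measure.map (fun p : Cfg × Cfg => glue (↑(U ∪ RC D B p.1)) p.1 p.2) (μ.prod μ)
            (toMeasurable μ A) :=
          (Measure.map_apply (measurable_glue_stop hR) (measurableSet_toMeasurable μ A)).symm
      _ = μ A := by rw [hmap, measure_toMeasurable]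
  rw [measureReal_def, measureReal_def, measureReal_def, ← ENNReal.toReal_mul]
  exact ENNReal.toReal_mono (measure_ne_top _ _) hle

end Vale.Agent.P167.H950
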