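import Vale.Agent.P167.H166N.GP
import Vale.Agent.P167.H950.Contact

/-!
# P167, block NSYM: GP (probability of the gate event)
-/

namespace Vale.Agent.P167.H950

/-- **GP** -/
theorem gp : H318.GP := H166N.gp_of g2a g2b

end Vale.Agent.P167.H950
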